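import Vale.Agent.P251EJ81.TelMod
import Vale.Agent.P251.S.RegF

/-!
# P251EJ, block HS: linear maps out of a telescope of free modules

* `TF B Z` : `Z` is a telescope of `B`-free objects;
* `ext1Z`, `lift1Z` : the linear maps `G ⊗ Z ⟶ N` are given by their effect on `π_{2*} G`.
-/

open CategoryTheory MonoidalCategory MonObj Limits Pretriangulated

set_option linter.unusedSectionVars false

universe u

noncomputable section

namespace Vale.Agent.P251EJ81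

open Vale.Agent.P251 Vale.Agent.P251.T Vale.Agent.P251.S Vale.Agent.P251.S.ModStr
  Vale.Agent.P251.M Vale.Agent.P221X.EXG Vale.Agent.P221X.EXI Vale.Agent.P093.Nak
  Vale.Agent.P251.M.EvenSpheres

variable {T : Type u} [Category.{0} T] [Preadditive T] [HasZeroObject T] [HasShift T ℤ]
  [∀ n : ℤ, (shiftFunctor T n).Additive] [Pretriangulated T] [IsTriangulated T]
  [MonoidalCategory T] [SymmetricCategory T] [TensorTriangulated T] [MonoidalClosed T]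
  [HasCoproducts.{0} T] [HasProducts.{0} T] [StableCat T] {B : T} [MonObj B]

theorem odd_free (hB : OddZero B) {Y : T} (h : Fre B Y) : OddZero (B ⊗ Y) := by
  obtain ⟨J, ⟨b⟩⟩ := h
  have := b.isIso
  exact OddZero.of_iso (asIso (Sigma.desc fun j => lin (ModStr.free B Y) (b.w j)))
    (odd_sigma fun j => hB.tensS _)

/-- `Z` is a telescope of free objects -/
def TF (B : T) [MonObj B] (Z : T) : Prop :=
  ∃ (K : ℕ ⥤ T) (κ : ∀ n, K.obj n ⟶ Z), M.IsTel K Z κ ∧ ∀ n, Fre B (K.obj n)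

theorem TF.of_fre {Z : T} (h : Fre B Z) : TF B Z :=
  ⟨(Functor.const ℕ).obj Z, fun _ => 𝟙 Z, M.IsTel.of_pi (fun _ => Category.comp_id _)
    (fun _ n _ hw => ⟨n, le_rfl, hw⟩) fun _ w => ⟨0, w, Category.comp_id _⟩, fun _ => h⟩

theorem TF.tensor [IsCommMonObj B] {Y Z : T} (h : TF B Y) (h' : TF B Z) : TF B (Y ⊗ Z) := by
  obtain ⟨K, κ, h1, h2⟩ := h
  obtain ⟨K', κ', h1', h2'⟩ := h'
  exact ⟨_, _, h1.tensor h1', fun n => (h2 n).tensor (h2' n)⟩

theorem TF.iso {Y Z : T} (h : TF B Y) (e : Y ≅ Z) : TF B Z := by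
  obtain ⟨K, κ, h1, h2⟩ := h
  exact ⟨K, fun n => κ n ≫ e.hom, h1.of_iso (Iso.refl _) e fun n => (Category.id_comp _).symm, h2⟩

theorem tel_ext2 [IsCommMonObj B] {F : ℕ ⥤ T} {G : T} {io : ∀ n, F.obj n ⟶ G}
    (h : M.IsTel F G io) (hF : ∀ n, Fre B (F.obj n)) {Y Z N : T} (hY : Fre B Y) (hZ : TF B Z)
    (m : ModStr B N) (hN : OddZero N) {a b : Y ⊗ (G ⊗ Z) ⟶ N}
    (hab : ∀ n, Y ◁ (io n ▷ Z) ≫ a = Y ◁ (io n ▷ Z) ≫ b) : a = b := by
  obtain ⟨K, κ, h1, h2⟩ := hZ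
  refine tel_ext ((h.tensor h1).whiskerLeft Y)
    (fun n => van_rb (hY.tensor ((hF n).tensor (h2 n))) m hN) fun n => ?_
  change Y ◁ (io n ⊗ₘ κ n) ≫ a = Y ◁ (io n ⊗ₘ κ n) ≫ b
  rw [tensorHom_def', whiskerLeft_comp, Category.assoc, Category.assoc, hab]

theorem tel_ext1 [IsCommMonObj B] {F : ℕ ⥤ T} {G : T} {io : ∀ n, F.obj n ⟶ G}
    (h : M.IsTel F G io) (hF : ∀ n, Fre B (F.obj n)) {Z N : T} (hZ : TF B Z)
    (m : ModStr B N) (hN : OddZero N) {a b : G ⊗ Z ⟶ N}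
    (hab : ∀ n, io n ▷ Z ≫ a = io n ▷ Z ≫ b) : a = b := by
  rw [← cancel_epi (λ_ (G ⊗ Z)).hom]
  refine tel_ext2 h hF Fre.unit hZ m hN fun n => ?_
  rw [leftUnitor_naturality_assoc, leftUnitor_naturality_assoc, hab]

theorem lin_wr {N N' : T} {m : ModStr B N} {m' : ModStr B N'} {f : N ⟶ N'} (h : m.IsLinear m' f)
    (Z : T) : (m.tensorRight Z).IsLinear (m'.tensorRight Z) (f ▷ Z) := by
  have h' : m.act ≫ f = B ◁ f ≫ m'.act := h
  change ((α_ B N Z).inv ≫ m.act ▷ Z) ≫ f ▷ Z = B ◁ (f ▷ Z) ≫ (α_ B N' Z).inv ≫ m'.act ▷ Z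
  rw [Category.assoc, ← comp_whiskerRight, h', comp_whiskerRight,
    associator_inv_naturality_middle_assoc]

theorem lin_assoc_inv (W Z : T) : (ModStr.free B (W ⊗ Z)).IsLinear
    ((ModStr.free B W).tensorRight Z) (α_ B W Z).inv := by
  simp only [ModStr.IsLinear, ModStr.free, ModStr.tensorRight]
  monoidal

theorem lin_assoc_hom (W Z : T) : ((ModStr.free B W).tensorRight Z).IsLinear
    (ModStr.free B (W ⊗ Z)) (α_ B W Z).hom := by
  simp only [ModStr.IsLinear, ModStr.free, ModStr.tensorRight]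
  monoidal

theorem un_assoc (W Z : T) : P093.Nak.un B W ▷ Z ≫ (α_ B W Z).hom = P093.Nak.un B (W ⊗ Z) := by
  simp only [P093.Nak.un]
  monoidal

/-- linear maps out of `(B ⊗ ∐ S) ⊗ Z` -/
theorem free_ext {I : Type} {S : I → T} {Z N : T} (m : ModStr B N) {a b : (B ⊗ ∐ S) ⊗ Z ⟶ N}
    (ha : ((ModStr.free B _).tensorRight Z).IsLinear m a)
    (hb : ((ModStr.free B _).tensorRight Z).IsLinear m b)
    (h : ∀ i, (Sigma.ι S i ≫ P093.Nak.un B _) ▷ Z ≫ a = (Sigma.ι S i ≫ P093.Nak.un B _) ▷ Z ≫ b) : a = b := by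
  rw [← cancel_epi (α_ B (∐ S) Z).inv]
  refine lin_ext m (isLinear_comp _ _ (lin_assoc_inv _ _) ha)
    (isLinear_comp _ _ (lin_assoc_inv _ _) hb) (wr_ext Z fun i => ?_)
  have := h i
  rw [comp_whiskerRight, Category.assoc, Category.assoc] at this
  simpa only [← un_assoc, Category.assoc, Iso.hom_inv_id_assoc] using this

/-- the action of `c ∈ π_{2*} B` on maps `S ⊗ Z ⟶ N` -/
def zsm {N Z : T} (m : ModStr B N) {l k n : ℤ} (h : l + k = n) (c : (stdEven T).S l ⟶ B)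
    (y : (stdEven T).S k ⊗ Z ⟶ N) : (stdEven T).S n ⊗ Z ⟶ N :=
  ((stdEven T).mu l k n h).inv ▷ Z ≫ (α_ _ _ _).hom ≫ (c ⊗ₘ y) ≫ m.act

theorem gsmul_wr {N' N Z : T} {m' : ModStr B N'} {m : ModStr B N} {f : N' ⊗ Z ⟶ N}
    (hf : (m'.tensorRight Z).IsLinear m f) {l k n : ℤ} (h : l + k = n) (c : (stdEven T).S l ⟶ B)
    (x : (stdEven T).S k ⟶ N') : gsmul m' h c x ▷ Z ≫ f = zsm m h c (x ▷ Z ≫ f) := by
  have h' : ((α_ B N' Z).inv ≫ m'.act ▷ Z) ≫ f = B ◁ f ≫ m.act := hf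
  have h2 : (c ⊗ₘ (x ▷ Z ≫ f)) = (c ⊗ₘ x ▷ Z) ≫ B ◁ f := by
    rw [← id_tensorHom, tensorHom_comp_tensorHom, Category.comp_id]
  unfold gsmul zsm EvenSpheres.ext
  rw [h2, Category.assoc (c ⊗ₘ x ▷ Z), ← h', comp_whiskerRight, comp_whiskerRight]
  simp only [Category.assoc, MonoidalCategory.tensorHom_def, comp_whiskerRight]
  monoidal

/-- linear maps out of `X ⊗ Z`, `X` free on the `w i` -/
theorem free_ext' {I : Type} {S : I → T} {X Z N : T} {m' : ModStr B X} {w : ∀ i, S i ⟶ X}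
    (hw : IsIso (lin m' (Sigma.desc w))) (m : ModStr B N) {a b : X ⊗ Z ⟶ N}
    (ha : (m'.tensorRight Z).IsLinear m a) (hb : (m'.tensorRight Z).IsLinear m b)
    (h : ∀ i, w i ▷ Z ≫ a = w i ▷ Z ≫ b) : a = b := by
  rw [← cancel_epi (lin m' (Sigma.desc w) ▷ Z)]
  refine free_ext m (isLinear_comp _ _ (lin_wr (lin_isLinear m' _) Z) ha)
    (isLinear_comp _ _ (lin_wr (lin_isLinear m' _) Z) hb) fun i => ?_
  rw [← comp_whiskerRight_assoc, ← comp_whiskerRight_assoc, Category.assoc, un_lin, Sigma.ι_desc,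
    h]

theorem free_lift {I : Type} {S : I → T} {X Z N : T} {m' : ModStr B X} {w : ∀ i, S i ⟶ X}
    (hw : IsIso (lin m' (Sigma.desc w))) (m : ModStr B N) (y : ∀ i, S i ⊗ Z ⟶ N) :
    ∃ f : X ⊗ Z ⟶ N, (m'.tensorRight Z).IsLinear m f ∧ ∀ i, w i ▷ Z ≫ f = y i := by
  obtain ⟨d, hd⟩ : ∃ d : (∐ S) ⊗ Z ⟶ N, ∀ a, Sigma.ι S a ▷ Z ≫ d = y a :=
    ⟨Cofan.IsColimit.desc (isColimitOfHasCoproductOfPreservesColimit
      (MonoidalCategory.tensorRight Z) S) y, fun a => Cofan.IsColimit.fac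
        (isColimitOfHasCoproductOfPreservesColimit (MonoidalCategory.tensorRight Z) S) y a⟩
  refine ⟨inv (lin m' (Sigma.desc w)) ▷ Z ≫ (α_ _ _ _).hom ≫ lin m d,
    isLinear_comp _ _ (lin_wr (isLinear_inv _ _ (lin_isLinear m' _)) Z)
      (isLinear_comp _ _ (lin_assoc_hom _ _) (lin_isLinear m _)), fun i => ?_⟩
  have h1 : w i ≫ inv (lin m' (Sigma.desc w)) = Sigma.ι S i ≫ P093.Nak.un B _ := by
    rw [IsIso.comp_inv_eq, Category.assoc, un_lin, Sigma.ι_desc]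
  rw [← comp_whiskerRight_assoc, h1, comp_whiskerRight, Category.assoc, reassoc_of% un_assoc,
    un_lin, hd]

theorem free_expand {I : Type} {deg : I → ℤ} {X : T} {m' : ModStr B X}
    {w : ∀ i, (stdEven T).S (deg i) ⟶ X} (hw : IsIso (lin m' (Sigma.desc w))) {k : ℤ}
    (y : (stdEven T).S k ⟶ X) : ∃ (s : Finset I) (x : ∀ j, (stdEven T).S (k - deg j) ⟶ B),
      y = ∑ j ∈ s, gsmul m' (sub_add_cancel k (deg j)) (x j) (w j) := by
  obtain ⟨s, x, hx⟩ := (RBasis.taut (R := B) I deg).exists_expansion isSphere_std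
    (y ≫ inv (lin m' (Sigma.desc w)))
  refine ⟨s, x, ?_⟩
  rw [IsIso.comp_inv_eq] at hx
  rw [hx, Preadditive.sum_comp]
  refine Finset.sum_congr rfl fun a _ => ?_
  rw [← gsmul_comp _ m' (lin_isLinear m' _)]
  congr 1
  change (Sigma.ι (fun a => (stdEven T).S (deg a)) a ≫ P093.Nak.un B _) ≫ _ = _
  rw [Category.assoc, un_lin, Sigma.ι_desc]

section main

variable [IsCommMonObj B] {I : ℕ → Type} {deg : ∀ i, I i → ℤ} {F : ℕ ⥤ T}
  {mF : ∀ i, ModStr B (F.obj i)} {w : ∀ i (a : I i), (stdEven T).S (deg i a) ⟶ F.obj i}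
  {G : T} {io : ∀ i, F.obj i ⟶ G} (hB : Fre B B)
  (free : ∀ i, IsIso (lin (mF i) (Sigma.desc (w i)))) (tel : M.IsTel F G io) {mG : ModStr B G}
  (hio : ∀ i, (mF i).IsLinear mG (io i))

include hB free

theorem fre_obj (i : ℕ) : Fre B (F.obj i) :=
  have := free i
  (hB.tensor (Fre.sigma (deg i))).iso (asIso (lin (mF i) (Sigma.desc (w i))))

include tel

theorem tf_tel : TF B G := ⟨_, _, tel, fre_obj hB free⟩

include hio

/-- **Uniqueness of linear maps.** -/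
theorem ext1Z {Z N : T} (hZ : TF B Z) (m : ModStr B N) (hN : OddZero N) {a b : G ⊗ Z ⟶ N}
    (ha : (mG.tensorRight Z).IsLinear m a) (hb : (mG.tensorRight Z).IsLinear m b)
    (h : ∀ (k : ℤ) (x : (stdEven T).S k ⟶ G), x ▷ Z ≫ a = x ▷ Z ≫ b) : a = b := by
  refine tel_ext1 tel (fre_obj hB free) hZ m hN fun i => ?_
  refine free_ext' (free i) m (isLinear_comp _ _ (lin_wr (hio i) Z) ha)
    (isLinear_comp _ _ (lin_wr (hio i) Z) hb) fun j => ?_
  rw [← comp_whiskerRight_assoc, ← comp_whiskerRight_assoc]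
  exact h _ _

/-- **Existence of linear maps.** -/
theorem lift1Z (ht : ∀ i, (mF i).IsLinear (mF (i + 1)) (F.map (homOfLE (Nat.le_succ i))))
    {Z N : T} (hZ : TF B Z) (m : ModStr B N) (hN : OddZero N)
    (φ : ∀ k, ((stdEven T).S k ⟶ G) →+ ((stdEven T).S k ⊗ Z ⟶ N))
    (hφ : ∀ (l k n : ℤ) (h : l + k = n) (c : (stdEven T).S l ⟶ B) (x : (stdEven T).S k ⟶ G),
      φ n (gsmul mG h c x) = zsm m h c (φ k x)) :
    ∃ f : G ⊗ Z ⟶ N, (mG.tensorRight Z).IsLinear m f ∧ ∀ k x, x ▷ Z ≫ f = φ k x := by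
  choose d hl hd using fun i => free_lift (Z := Z) (free i) m fun a => φ _ (w i a ≫ io i)
  have hK : ∀ i k (y : (stdEven T).S k ⟶ F.obj i), y ▷ Z ≫ d i = φ k (y ≫ io i) :=
    fun i k y => by
    obtain ⟨s, x, rfl⟩ := free_expand (free i) y
    rw [Preadditive.sum_comp, map_sum, sum_whiskerRight, Preadditive.sum_comp]
    refine Finset.sum_congr rfl fun a _ => ?_
    rw [gsmul_wr (hl i), ← gsmul_comp _ mG (hio i), hφ, hd]
  obtain ⟨f, hf⟩ := (tel.whiskerRight Z).exists_lift d fun i => by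
    change F.map _ ▷ Z ≫ d (i + 1) = d i
    refine free_ext' (free i) m (isLinear_comp _ _ (lin_wr (ht i) Z) (hl (i + 1))) (hl i)
      fun a => ?_
    rw [← comp_whiskerRight_assoc, hK, hK, Category.assoc, tel.comp_succ]
  have hf' : ∀ i, io i ▷ Z ≫ f = d i := hf
  refine ⟨f, tel_ext2 tel (fre_obj hB free) hB hZ m hN fun i => ?_, fun k x => ?_⟩
  · have h2 : _ ≫ _ = _ ≫ _ := lin_wr (hio i) Z
    have h3 : _ ≫ _ = _ ≫ _ := hl i
    rw [← reassoc_of% h2, ← whiskerLeft_comp_assoc, hf']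
    exact h3
  · obtain ⟨i, y, rfl⟩ := tel.exists_factor' (isCpt_S k) x
    rw [comp_whiskerRight, Category.assoc, hf']
    exact hK i k y

end main

end Vale.Agent.P251EJ81
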