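import Vale.Agent.P221X.EXQ.Defs
import Vale.Agent.P093.N.HExt
import Vale.Agent.P093.N.Nak2
import Vale.Agent.P251.M.TelPi
import Vale.Agent.P251.M.QOut

/-!
# P251EJ, block HS: telescopes of even modules

* `van_rb` : the maps of odd degree from a `B`-free object to an even module vanish;
* `odd_tel`, `van_tel` : the same for a telescope of even modules as the target;
* `exists_telMod` : the module structure on the telescope.
-/

open CategoryTheory MonoidalCategory MonObj Limits Pretriangulated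

set_option linter.unusedSectionVars false

universe u

noncomputable section

namespace Vale.Agent.P251EJ81

open Vale.Agent.P251 Vale.Agent.P251.T Vale.Agent.P251.S Vale.Agent.P251.S.ModStr
  Vale.Agent.P251.M Vale.Agent.P221X.EXG Vale.Agent.P221X.EXI Vale.Agent.P093.Nak

variable {T : Type u} [Category.{0} T] [Preadditive T] [HasZeroObject T] [HasShift T ℤ]
  [∀ n : ℤ, (shiftFunctor T n).Additive] [Pretriangulated T] [IsTriangulated T]
  [MonoidalCategory T] [SymmetricCategory T] [TensorTriangulated T] [MonoidalClosed T]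
  [HasCoproducts.{0} T] [HasProducts.{0} T] [StableCat T] {B : T} [MonObj B]

theorem isCpt_S (k : ℤ) : M.IsCpt ((stdEven T).S k) :=
  (isCpt_sph (2 * k)).of_iso ((stdEven T).sphIso (Iso.refl _) k).symm

/-- `B ⊗ Y` is free on even classes -/
def Fre (B : T) [MonObj B] (Y : T) : Prop := ∃ J : Type, Nonempty (RBasis (stdEven T) B Y J)

theorem Fre.tensor [IsCommMonObj B] {Y Z : T} (h : Fre B Y) (h' : Fre B Z) : Fre B (Y ⊗ Z) := by
  obtain ⟨J, ⟨b⟩⟩ := h
  obtain ⟨K, ⟨c⟩⟩ := h'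
  exact ⟨_, ⟨b.tensor c⟩⟩

theorem Fre.iso {Y Z : T} (h : Fre B Y) (e : Y ≅ Z) : Fre B Z := by
  obtain ⟨J, ⟨b⟩⟩ := h
  exact ⟨_, ⟨b.ofIso e⟩⟩

theorem Fre.sigma {J : Type} (k : J → ℤ) : Fre B (∐ fun j => (stdEven T).S (k j)) :=
  ⟨_, ⟨RBasis.taut J k⟩⟩

theorem Fre.sph (k : ℤ) : Fre B ((stdEven T).S k) :=
  (Fre.sigma (fun _ : Unit => k)).iso (coproductUniqueIso fun _ : Unit => (stdEven T).S k)

theorem Fre.unit : Fre B (𝟙_ T) := (Fre.sph 0).iso (stdEven T).zero.symm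

theorem ze_tens {Y : T} (h : Fre B Y) {W N : T} (m : ModStr B N) (h' : ZE W N) :
    ZE (Y ⊗ W) N := fun j f => by
  obtain ⟨J, ⟨b⟩⟩ := h
  have hb : IsIso ((fr B Y).ext (Sigma.desc b.w)) := (isIso_desc_iff _ _).1 b.isIso
  have h3 : KEq (𝟙_ T) ((fr B (Y ⊗ ((stdEven T).S j ⊗ W))).ext
      (Sigma.desc b.w ▷ _ ≫ (α_ _ _ _).hom)) := by
    rw [ext_tensor]
    exact KEq.of_isIso _
  have hN : IsLocal (𝟙_ T) N := fun A hA f => (IsZero.of_iso hA (λ_ A).symm).eq_of_src _ _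
  let e : Y ⊗ ((stdEven T).S j ⊗ W) ≅ (stdEven T).S j ⊗ (Y ⊗ W) :=
    (α_ _ _ _).symm ≪≫ whiskerRightIso (β_ _ _) W ≪≫ α_ _ _ _
  rw [← cancel_epi e.hom, comp_zero]
  refine (uct h3 m hN).1 ((isColimitOfPreserves (tensorRight ((stdEven T).S j ⊗ W))
    (coproductIsCoproduct fun a => (stdEven T).S (b.k a))).hom_ext fun ⟨a⟩ => ?_)
  have h4 : ∀ x : (stdEven T).S (b.k a) ⊗ ((stdEven T).S j ⊗ W) ⟶ N, x = 0 := fun x => by
    rw [← cancel_epi (((stdEven T).mu (b.k a) j _ rfl).inv ▷ W ≫ (α_ _ _ _).hom), comp_zero]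
    exact h' _ _
  exact (h4 _).trans (h4 _).symm

/-- maps of odd degree from free objects to even modules vanish -/
theorem van_rb {Y N : T} (h : Fre B Y) (m : ModStr B N) (hN : OddZero N) : Van Y N :=
  Van.of_ze (ze_tens h m (ZE.of_odd hN))

section sigma

variable {I : Type} {X : I → T}

theorem wl_ext (Z : T) {Y : T} {a b : Z ⊗ ∐ X ⟶ Y}
    (h : ∀ n, Z ◁ Sigma.ι X n ≫ a = Z ◁ Sigma.ι X n ≫ b) : a = b :=
  Cofan.IsColimit.hom_ext (isColimitOfHasCoproductOfPreservesColimit (tensorLeft Z) X) _ _ h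

theorem wr_ext (Z : T) {Y : T} {a b : (∐ X) ⊗ Z ⟶ Y}
    (h : ∀ n, Sigma.ι X n ▷ Z ≫ a = Sigma.ι X n ▷ Z ≫ b) : a = b :=
  Cofan.IsColimit.hom_ext (isColimitOfHasCoproductOfPreservesColimit (tensorRight Z) X) _ _ h

theorem exists_sigMod (m : ∀ i, ModStr B (X i)) :
    ∃ M : ModStr B (∐ X), ∀ i, (m i).IsLinear M (Sigma.ι X i) := by
  let hc := isColimitOfHasCoproductOfPreservesColimit (tensorLeft B) X
  obtain ⟨a, ha⟩ : ∃ a : B ⊗ ∐ X ⟶ ∐ X, ∀ i, B ◁ Sigma.ι X i ≫ a = (m i).act ≫ Sigma.ι X i :=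
    ⟨Cofan.IsColimit.desc hc fun i => (m i).act ≫ Sigma.ι X i,
      fun i => Cofan.IsColimit.fac hc _ i⟩
  refine ⟨⟨a, wl_ext _ fun i => ?_, wl_ext _ fun i => ?_⟩, fun i => (ha i).symm⟩
  · rw [whisker_exchange_assoc, ha, ← Category.assoc, (m i).one_act, leftUnitor_naturality]
  · rw [whisker_exchange_assoc, ha, ← Category.assoc, (m i).mul_act,
      associator_naturality_right_assoc, ← whiskerLeft_comp_assoc, ha, whiskerLeft_comp]
    simp only [Category.assoc, ha]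

theorem odd_sigma (h : ∀ i, OddZero (X i)) : OddZero (∐ X) := fun n hn _ =>
  (isCpt_sph n).ext X _ _ fun i => (h i n hn _).trans (h i n hn _).symm

end sigma

section tel

variable {F : ℕ ⥤ T} {G : T} {io : ∀ n, F.obj n ⟶ G}

theorem odd_tel (h : M.IsTel F G io) (hF : ∀ n, OddZero (F.obj n)) : OddZero G := fun k hk f => by
  obtain ⟨n, w, rfl⟩ := h.exists_factor' (isCpt_sph k) f
  rw [hF n k hk w, zero_comp]

/-- maps of odd degree from free objects to the telescope vanish -/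
theorem van_tel (h : M.IsTel F G io) (m : ∀ n, ModStr B (F.obj n))
    (hl : ∀ n, (m n).IsLinear (m (n + 1)) (F.map (homOfLE (Nat.le_succ n))))
    (hF : ∀ n, OddZero (F.obj n)) {Y : T} (hY : Fre B Y) : Van Y G := fun f => by
  obtain ⟨δ, hδ⟩ := h.exists_triangle
  obtain ⟨M, hM⟩ := exists_sigMod m
  have hlin : M.IsLinear M (telMap F) := by
    refine wl_ext _ fun n => ?_
    have h1 : (m n).act ≫ _ = _ := hM n
    have h2 : (m (n + 1)).act ≫ _ = _ := hM (n + 1)
    have h3 : (m n).act ≫ _ = _ := hl n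
    rw [← reassoc_of% h1, ι_telMap, ← whiskerLeft_comp_assoc, ι_telMap, whiskerLeft_sub,
      Preadditive.sub_comp, Preadditive.comp_sub, h1, whiskerLeft_comp, Category.assoc, ← h2,
      reassoc_of% h3]
  obtain ⟨v, hv⟩ := (shiftFunctor T (1 : ℤ)).map_surjective (f ≫ δ)
  have hv1 : v ≫ telMap F = 0 := by
    apply (shiftFunctor T (1 : ℤ)).map_injective
    rw [Functor.map_comp, hv, Category.assoc, dist_zero₃₁ hδ, comp_zero, Functor.map_zero]
  have hv0 : v = 0 := by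
    obtain ⟨J, ⟨b⟩⟩ := hY
    refine b.hom_ext' M fun j => ?_
    have h0 : lin M (0 : Y ⟶ ∐ F.obj) = 0 := by
      unfold lin
      rw [MonoidalPreadditive.whiskerLeft_zero, zero_comp]
    rw [h0, comp_zero]
    refine eq_zero_of_comp_telMap (isCpt_S _) F _ ?_
    rw [Category.assoc, lin_comp M M _ _ hlin, hv1, h0, comp_zero]
  rw [hv0, Functor.map_zero] at hv
  obtain ⟨z, hz⟩ := dist_co₃ hδ f hv.symm
  rw [hz, van_rb hY M (odd_sigma hF) z, zero_comp]

/-- maps out of a telescope, when the maps of odd degree vanish -/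
theorem tel_ext (h : M.IsTel F G io) {N : T} (hN : ∀ n, Van (F.obj n) N) {a b : G ⟶ N}
    (hab : ∀ n, io n ≫ a = io n ≫ b) : a = b :=
  h.hom_ext_of_surj (fun n g => ⟨0, by rw [comp_zero, hN n g]⟩) a b hab

/-- **The module structure on the telescope.** -/
theorem exists_telMod [IsCommMonObj B] (hB : Fre B B) (h : M.IsTel F G io)
    (m : ∀ n, ModStr B (F.obj n))
    (hl : ∀ n, (m n).IsLinear (m (n + 1)) (F.map (homOfLE (Nat.le_succ n))))
    (hF : ∀ n, OddZero (F.obj n)) (hfr : ∀ n, Fre B (F.obj n)) :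
    ∃ M : ModStr B G, ∀ n, (m n).IsLinear M (io n) := by
  obtain ⟨a, ha⟩ := (h.whiskerLeft B).exists_lift (fun n => (m n).act ≫ io n) fun n => by
    have h3 : (m n).act ≫ _ = _ := hl n
    change B ◁ F.map _ ≫ (m (n + 1)).act ≫ io (n + 1) = (m n).act ≫ io n
    rw [← reassoc_of% h3, h.comp_succ]
  have ha' : ∀ n, B ◁ io n ≫ a = (m n).act ≫ io n := ha
  refine ⟨⟨a, ?_, ?_⟩, fun n => (ha' n).symm⟩
  · refine tel_ext (h.whiskerLeft (𝟙_ T))
      (fun n => van_tel h m hl hF (Fre.unit.tensor (hfr n))) fun n => ?_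
    change 𝟙_ T ◁ io n ≫ _ = 𝟙_ T ◁ io n ≫ _
    rw [whisker_exchange_assoc, ha', ← Category.assoc, (m n).one_act, leftUnitor_naturality]
  · refine tel_ext (h.whiskerLeft (B ⊗ B))
      (fun n => van_tel h m hl hF ((hB.tensor hB).tensor (hfr n))) fun n => ?_
    change (B ⊗ B) ◁ io n ≫ _ = (B ⊗ B) ◁ io n ≫ _
    rw [whisker_exchange_assoc, ha', ← Category.assoc, (m n).mul_act,
      associator_naturality_right_assoc, ← whiskerLeft_comp_assoc, ha', whiskerLeft_comp]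
    simp only [Category.assoc, ha']

end tel

end Vale.Agent.P251EJ81
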