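import Vale.Agent.P251EJ81.TL
import Vale.Agent.P251EJ80.TD
import Vale.Agent.P251EJ39.Lin

/-!
# P251EJ, block HS: the product on the telescope
-/

open CategoryTheory MonoidalCategory MonObj Limits Pretriangulated

set_option linter.unusedSectionVars false

universe u

noncomputable section

namespace Vale.Agent.P251EJ81

open Vale.Agent.P251 Vale.Agent.P251.T Vale.Agent.P251.S Vale.Agent.P251.S.ModStr
  Vale.Agent.P251.M Vale.Agent.P093.Nak Vale.Agent.P251.M.EvenSpheres Vale.Agent.P251EJ80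

variable {T : Type u} [Category.{0} T] [Preadditive T] [HasZeroObject T] [HasShift T ℤ]
  [∀ n : ℤ, (shiftFunctor T n).Additive] [Pretriangulated T] [IsTriangulated T]
  [MonoidalCategory T] [SymmetricCategory T] [TensorTriangulated T] [MonoidalClosed T]
  [HasCoproducts.{0} T] [HasProducts.{0} T] [StableCat T] {B : T} [MonObj B] [IsCommMonObj B]
  {A : Type} [CommRing A] {H : ℤ → AddSubgroup A} [GradedRing H]
  {lam : HRing (stdEven T) B →+* A} (X : TD B H lam)

theorem lr_iff {N N' Z : T} (m : ModStr B N) (m' : ModStr B N') (f : Z ⊗ N ⟶ N') :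
    (m.tensorLeft Z).IsLinear m' f ↔ Z ◁ m.act ≫ f =
      (α_ Z B N).inv ≫ (β_ Z B).hom ▷ N ≫ (α_ B Z N).hom ≫ B ◁ f ≫ m'.act := by
  unfold ModStr.IsLinear
  rw [tl_act]
  simp only [Category.assoc]
  constructor
  · intro h
    rw [← h, Iso.hom_inv_id_assoc, ← comp_whiskerRight_assoc, SymmetricCategory.symmetry]
    simp
  · intro h
    rw [h, Iso.hom_inv_id_assoc, ← comp_whiskerRight_assoc, SymmetricCategory.symmetry]
    simp

/-- the inverse of `ψ` on homogeneous elements -/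
def th (d : ℤ) : ((stdEven T).S d ⟶ X.G) →+ A :=
  ((AddEquiv.ofBijective X.ψ X.bij).symm.toAddMonoidHom).comp
    (DirectSum.of ((stdEven T).Gr X.G) d)

theorem ψ_th (d : ℤ) (x : (stdEven T).S d ⟶ X.G) :
    X.ψ (th X d x) = HRing.of (stdEven T) X.G d x :=
  (AddEquiv.ofBijective X.ψ X.bij).apply_symm_apply _

theorem th_eq {d : ℤ} {x : (stdEven T).S d ⟶ X.G} {a : A}
    (h : X.ψ a = HRing.of (stdEven T) X.G d x) : th X d x = a :=
  X.bij.1 ((ψ_th X d x).trans h.symm)

theorem th_inj (d : ℤ) : Function.Injective (th X d) := fun x y h =>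
  P251EJ39.of_inj d (by rw [← ψ_th, h, ψ_th])

theorem th_surj (d : ℤ) (a : A) (ha : a ∈ H d) : ∃ x, th X d x = a :=
  (X.ψ_mem d a ha).imp fun _ h => th_eq X h

theorem ψ_proj (d : ℤ) (a : A) :
    X.ψ (GradedRing.proj H d a) = HRing.of (stdEven T) X.G d (X.ψ a d) := by
  induction a using DirectSum.Decomposition.inductionOn H with
  | zero => simp
  | add a b ha hb =>
    rw [map_add, map_add, ha, hb, map_add, DirectSum.add_apply]
    exact (map_add (DirectSum.of ((stdEven T).Gr X.G) d) _ _).symm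
  | @homogeneous e a =>
    obtain ⟨x, hx⟩ := X.ψ_mem e a a.2
    rw [GradedRing.proj_apply, hx]
    by_cases h : e = d
    · subst h
      rw [DirectSum.decompose_of_mem_same H a.2, hx, DirectSum.of_eq_same]
    · rw [DirectSum.decompose_of_mem_ne H a.2 h, DirectSum.of_eq_of_ne _ _ _ (Ne.symm h),
        map_zero]
      exact (map_zero (DirectSum.of ((stdEven T).Gr X.G) d)).symm

theorem th_mem (d : ℤ) (x : (stdEven T).S d ⟶ X.G) : th X d x ∈ H d := by
  have h : GradedRing.proj H d (th X d x) = th X d x := X.bij.1 (by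
    rw [ψ_proj, ψ_th, DirectSum.of_eq_same])
  rw [← h, GradedRing.proj_apply]
  exact Subtype.property _

theorem th_smul {i k n : ℤ} (h : i + k = n) (c : (stdEven T).S i ⟶ B)
    (x : (stdEven T).S k ⟶ X.G) :
    th X n (gsmul X.mG h c x) = lam (HRing.of (stdEven T) B i c) * th X k x :=
  th_eq X (X.ψ_lam i k n h c _ x (ψ_th X k x))

/-- the product of homotopy classes -/
def pd {i k n : ℤ} (h : i + k = n) (x : (stdEven T).S i ⟶ X.G) (y : (stdEven T).S k ⟶ X.G) :
    (stdEven T).S n ⟶ X.G :=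
  (th_surj X n _ (h ▸ SetLike.mul_mem_graded (th_mem X i x) (th_mem X k y))).choose

theorem th_pd {i k n : ℤ} (h : i + k = n) (x : (stdEven T).S i ⟶ X.G)
    (y : (stdEven T).S k ⟶ X.G) : th X n (pd X h x y) = th X i x * th X k y :=
  (th_surj X n _ (h ▸ SetLike.mul_mem_graded (th_mem X i x) (th_mem X k y))).choose_spec

variable (hB : Fre B B)

include hB

theorem tfG : TF B X.G := tf_tel hB X.free X.tel

theorem extL {Z N : T} (hZ : TF B Z) (m : ModStr B N) (hN : OddZero N) {a b : X.G ⊗ Z ⟶ N}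
    (ha : (X.mG.tensorRight Z).IsLinear m a) (hb : (X.mG.tensorRight Z).IsLinear m b)
    (h : ∀ (k : ℤ) (x : (stdEven T).S k ⟶ X.G), x ▷ Z ≫ a = x ▷ Z ≫ b) : a = b :=
  ext1Z hB X.free X.tel X.lin_io hZ m hN ha hb h

theorem extR {Z N : T} (hZ : TF B Z) (m : ModStr B N) (hN : OddZero N) {a b : Z ⊗ X.G ⟶ N}
    (ha : (X.mG.tensorLeft Z).IsLinear m a) (hb : (X.mG.tensorLeft Z).IsLinear m b)
    (h : ∀ (k : ℤ) (x : (stdEven T).S k ⟶ X.G), Z ◁ x ≫ a = Z ◁ x ≫ b) : a = b := by
  rw [← cancel_epi (β_ X.G Z).hom]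
  refine extL X hB hZ m hN (isLinear_comp _ _ (lin_beta _ _) ha)
    (isLinear_comp _ _ (lin_beta _ _) hb) fun k x => ?_
  rw [BraidedCategory.braiding_naturality_left_assoc,
    BraidedCategory.braiding_naturality_left_assoc, h]

theorem extM {Y Z N : T} (hY : TF B Y) (hZ : TF B Z) (m : ModStr B N) (hN : OddZero N)
    {a b : (Y ⊗ X.G) ⊗ Z ⟶ N} (ha : ((X.mG.tensorLeft Y).tensorRight Z).IsLinear m a)
    (hb : ((X.mG.tensorLeft Y).tensorRight Z).IsLinear m b)
    (h : ∀ (k : ℤ) (x : (stdEven T).S k ⟶ X.G), (Y ◁ x) ▷ Z ≫ a = (Y ◁ x) ▷ Z ≫ b) : a = b := by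
  rw [← cancel_epi ((β_ X.G Y).hom ▷ Z), ← cancel_epi (α_ X.G Y Z).inv]
  refine extL X hB (hY.tensor hZ) m hN
    (isLinear_comp _ _ (tr_assoc' _ _ _) (isLinear_comp _ _ (lin_wr (lin_beta _ _) _) ha))
    (isLinear_comp _ _ (tr_assoc' _ _ _) (isLinear_comp _ _ (lin_wr (lin_beta _ _) _) hb))
    fun k x => ?_
  rw [associator_inv_naturality_left_assoc, associator_inv_naturality_left_assoc,
    ← comp_whiskerRight_assoc, ← comp_whiskerRight_assoc, BraidedCategory.braiding_naturality_left,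
    comp_whiskerRight_assoc, comp_whiskerRight_assoc, h]

theorem ext2 {N : T} (m : ModStr B N) (hN : OddZero N) {a b : X.G ⊗ X.G ⟶ N}
    (ha : (X.mG.tensorRight _).IsLinear m a) (ha' : (X.mG.tensorLeft _).IsLinear m a)
    (hb : (X.mG.tensorRight _).IsLinear m b) (hb' : (X.mG.tensorLeft _).IsLinear m b)
    (h : ∀ (i k : ℤ) (x : (stdEven T).S i ⟶ X.G) (y : (stdEven T).S k ⟶ X.G),
      (x ⊗ₘ y) ≫ a = (x ⊗ₘ y) ≫ b) : a = b :=
  extL X hB (tfG X hB) m hN ha hb fun i x => extR X hB (TF.of_fre (Fre.sph i)) m hN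
    (isLinear_comp _ _ (tl_wr _ _) ha') (isLinear_comp _ _ (tl_wr _ _) hb') fun k y => by
      rw [← tensorHom_def'_assoc, ← tensorHom_def'_assoc, h]

theorem exists_ell (k : ℤ) (x : (stdEven T).S k ⟶ X.G) : ∃ l : (stdEven T).S k ⊗ X.G ⟶ X.G,
    (X.mG.tensorLeft _).IsLinear X.mG l ∧ ∀ (i n : ℤ) (h : k + i = n) (y : (stdEven T).S i ⟶ X.G),
      (stdEven T).S k ◁ y ≫ l = ((stdEven T).mu k i n h).hom ≫ pd X h x y := by
  obtain ⟨r, h1, h2⟩ := lift1Z hB X.free X.tel X.lin_io X.lin_t (TF.of_fre (Fre.sph k)) X.mG X.odd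
    (fun i => AddMonoidHom.mk' (fun y => ((stdEven T).mu i k (i + k) rfl).hom ≫ pd X rfl y x)
      fun y y' => by
        rw [← Preadditive.comp_add]
        congr 1
        exact th_inj X _ (by rw [map_add, th_pd, th_pd, th_pd, map_add, add_mul]))
    fun l i n h c y => by
      change _ ≫ _ = zsm _ _ _ (_ ≫ _)
      rw [zsm_mu X.mG h rfl rfl (by omega)]
      congr 1
      exact th_inj X _ (by rw [th_pd, th_smul, th_smul, th_pd, _root_.mul_assoc])
  refine ⟨(β_ _ _).hom ≫ r, isLinear_comp _ _ (lin_beta' _ _) h1, fun i n h y => ?_⟩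
  obtain rfl : n = i + k := by omega
  rw [BraidedCategory.braiding_naturality_right_assoc, h2]
  change _ ≫ _ ≫ _ = _
  rw [← Category.assoc, (stdEven T).mu_comm k i _ h rfl]
  congr 1
  exact th_inj X _ (by rw [th_pd, th_pd, _root_.mul_comm])

/-- **The product.** -/
theorem exists_mul : ∃ pm : X.G ⊗ X.G ⟶ X.G, (X.mG.tensorRight _).IsLinear X.mG pm ∧
    (X.mG.tensorLeft _).IsLinear X.mG pm ∧ ∀ (i k n : ℤ) (h : i + k = n)
      (x : (stdEven T).S i ⟶ X.G) (y : (stdEven T).S k ⟶ X.G),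
      (x ⊗ₘ y) ≫ pm = ((stdEven T).mu i k n h).hom ≫ pd X h x y := by
  choose l hl hl' using exists_ell X hB
  have hadd : ∀ {N N' : T} {m : ModStr B N} {m' : ModStr B N'} {f g : N ⟶ N'},
      m.IsLinear m' f → m.IsLinear m' g → m.IsLinear m' (f + g) := fun hf hg => by
    unfold ModStr.IsLinear at hf hg ⊢
    rw [Preadditive.comp_add, hf, hg, MonoidalPreadditive.whiskerLeft_add, Preadditive.add_comp]
  obtain ⟨pm, h1, h2⟩ := lift1Z hB X.free X.tel X.lin_io X.lin_t (tfG X hB) X.mG X.odd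
    (fun k => AddMonoidHom.mk' (l k) fun x x' =>
      extR X hB (TF.of_fre (Fre.sph k)) X.mG X.odd (hl _ _) (hadd (hl _ _) (hl _ _)) fun i y => by
        rw [Preadditive.comp_add, hl' k _ i _ rfl, hl' k _ i _ rfl, hl' k _ i _ rfl,
          ← Preadditive.comp_add]
        congr 1
        exact th_inj X _ (by rw [map_add, th_pd, th_pd, th_pd, map_add, add_mul]))
    fun j k n h c x => extR X hB (TF.of_fre (Fre.sph n)) X.mG X.odd (hl _ _)
      (zsm_lin _ h c (hl _ _)) fun i y => by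
        change _ ≫ l n _ = _ ≫ zsm _ _ _ (l k x)
        rw [wl_zsm, hl' n _ i _ rfl, hl' k _ i _ rfl, zsm_mu X.mG h rfl rfl (by omega)]
        congr 1
        exact th_inj X _ (by rw [th_pd, th_smul, th_smul, th_pd, _root_.mul_assoc])
  have h2' : ∀ k x, x ▷ X.G ≫ pm = l k x := h2
  refine ⟨pm, h1, (lr_iff _ _ _).2 ?_, fun i k n h x y => ?_⟩
  · refine extL X hB ((TF.of_fre hB).tensor (tfG X hB)) X.mG X.odd
      (isLinear_comp _ _ (lin_wl _ _) h1) (isLinear_comp _ _ (tr_assoc' _ _ _)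
        (isLinear_comp _ _ (lin_wr (lin_beta _ _) _) (isLinear_comp _ _ (tl_mid _ _ _)
          (isLinear_comp _ _ (tl_wl h1 _) (act_lin _))))) fun k x => ?_
    rw [← whisker_exchange_assoc, h2', (lr_iff _ _ _).1 (hl k x),
      associator_inv_naturality_left_assoc, ← comp_whiskerRight_assoc (x ▷ B),
      BraidedCategory.braiding_naturality_left, comp_whiskerRight_assoc,
      associator_naturality_middle_assoc, ← whiskerLeft_comp_assoc, h2']
  · rw [tensorHom_def'_assoc, h2', hl' i x k n h]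

/-- **The monoid structure.** -/
theorem exists_mon : ∃ (_ : MonObj X.G) (_ : IsCommMonObj X.G),
    (∀ (i k n : ℤ) (h : i + k = n) (x : (stdEven T).S i ⟶ X.G) (y : (stdEven T).S k ⟶ X.G),
      th X n (gmul h x y) = th X i x * th X k y) ∧
    (X.mG.tensorRight X.G).IsLinear X.mG μ[X.G] := by
  obtain ⟨pm, h1, h2, h3⟩ := exists_mul X hB
  obtain ⟨x1, hx1⟩ := th_surj X 0 1 SetLike.GradedOne.one_mem
  have h4 : ∀ (i k n : ℤ) (h : i + k = n) (x : (stdEven T).S i ⟶ X.G)
      (y : (stdEven T).S k ⟶ X.G), (stdEven T).S i ◁ y ≫ x ▷ X.G ≫ pm =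
        ((stdEven T).mu i k n h).hom ≫ pd X h x y := fun i k n h x y => by
    rw [← tensorHom_def'_assoc, h3]
  have hc : (β_ X.G X.G).hom ≫ pm = pm :=
    ext2 X hB X.mG X.odd (isLinear_comp _ _ (lin_beta _ _) h2)
      (isLinear_comp _ _ (lin_beta' _ _) h1) h1 h2 fun i k x y => by
      rw [BraidedCategory.braiding_naturality_assoc, h3 k i _ (add_comm k i), h3 i k _ rfl,
        ← Category.assoc, (stdEven T).mu_comm i k _ rfl]
      congr 1
      exact th_inj X _ (by rw [th_pd, th_pd, _root_.mul_comm])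
  have ho : ((stdEven T).zero.hom ≫ x1) ▷ X.G ≫ pm = (λ_ X.G).hom :=
    extR X hB (TF.of_fre Fre.unit) X.mG X.odd (isLinear_comp _ _ (tl_wr _ _) h2) (tl_unit _)
      fun k y => by
      rw [comp_whiskerRight_assoc, whisker_exchange_assoc, h4 0 k k (zero_add k), ← Category.assoc,
        (stdEven T).zero_mu', leftUnitor_naturality]
      congr 1
      exact th_inj X _ (by rw [th_pd, hx1, _root_.one_mul])
  have ha : pm ▷ X.G ≫ pm = (α_ _ _ _).hom ≫ X.G ◁ pm ≫ pm := by
    rw [← Iso.inv_comp_eq]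
    refine extL X hB ((tfG X hB).tensor (tfG X hB)) X.mG X.odd
      (isLinear_comp _ _ (tr_assoc' _ _ _) (isLinear_comp _ _ (lin_wr h1 _) h1))
      (isLinear_comp _ _ (lin_wl _ _) h1) fun k x => ?_
    have hx : (X.mG.tensorLeft _).IsLinear X.mG (x ▷ X.G ≫ pm) := isLinear_comp _ _ (tl_wr _ _) h2
    rw [associator_inv_naturality_left_assoc, ← comp_whiskerRight_assoc, ← whisker_exchange_assoc,
      Iso.inv_comp_eq]
    refine extM X hB (TF.of_fre (Fre.sph k)) (tfG X hB) X.mG X.odd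
      (isLinear_comp _ _ (lin_wr hx _) h1)
      (isLinear_comp _ _ (tl_mid _ _ _) (isLinear_comp _ _ (tl_wl h1 _) hx)) fun i y => ?_
    have hy : (X.mG.tensorLeft _).IsLinear X.mG (y ▷ X.G ≫ pm) := isLinear_comp _ _ (tl_wr _ _) h2
    rw [← comp_whiskerRight_assoc, h4 k i _ rfl, associator_naturality_middle_assoc,
      ← whiskerLeft_comp_assoc]
    refine extR X hB (TF.of_fre ((Fre.sph k).tensor (Fre.sph i))) X.mG X.odd
      (isLinear_comp _ _ (tl_wr _ _) h2)
      (isLinear_comp _ _ (tl_assoc _ _ _) (isLinear_comp _ _ (tl_wl hy _) hx)) fun j z => ?_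
    rw [comp_whiskerRight_assoc, whisker_exchange_assoc, h4 _ j _ rfl,
      associator_naturality_right_assoc, ← whiskerLeft_comp_assoc, h4 i j _ rfl,
      whiskerLeft_comp_assoc, h4 k _ (k + i + j) (by omega),
      reassoc_of% ((stdEven T).mu_assoc k i j _ _ _ rfl rfl rfl (by omega))]
    congr 3
    exact th_inj X _ (by rw [th_pd, th_pd, th_pd, th_pd, _root_.mul_assoc])
  let this : MonObj X.G :=
    { one := (stdEven T).zero.hom ≫ x1
      mul := pm
      one_mul := ho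
      mul_one := by
        rw [← hc, BraidedCategory.braiding_naturality_right_assoc, ho, braiding_leftUnitor]
      mul_assoc := ha }
  refine ⟨this, ⟨hc⟩, fun i k n h x y => ?_, h1⟩
  have h5 : gmul h x y = pd X h x y := by
    change (((stdEven T).mu i k n h).inv ≫ (x ⊗ₘ y)) ≫ pm = _
    rw [Category.assoc, h3 i k n h, Iso.inv_hom_id_assoc]
  rw [h5, th_pd]

omit hB in
variable (T) in
theorem mulRow : P251EJ39.MulRow T := fun _ _ _ hB _ _ _ _ _ X => exists_mon X hB

omit hB in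
variable (T) in
/-- **Second half of HS.** -/
theorem hs2 : HS2 T := P251EJ39.hs2_of (mulRow T)

end Vale.Agent.P251EJ81
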