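import Vale.Agent.P251EJ81.Free
import Vale.Agent.P251.S.E1b

/-!
# P251EJ, block HS: linearity in the right variable
-/

open CategoryTheory MonoidalCategory MonObj Limits Pretriangulated

set_option linter.unusedSectionVars false

universe u

noncomputable section

namespace Vale.Agent.P251EJ81

open Vale.Agent.P251 Vale.Agent.P251.T Vale.Agent.P251.S Vale.Agent.P251.S.ModStr
  Vale.Agent.P251.M Vale.Agent.P093.Nak Vale.Agent.P251.M.EvenSpheres

variable {T : Type u} [Category.{0} T] [Preadditive T] [HasZeroObject T] [HasShift T ℤ]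
  [∀ n : ℤ, (shiftFunctor T n).Additive] [Pretriangulated T] [IsTriangulated T]
  [MonoidalCategory T] [SymmetricCategory T] [TensorTriangulated T] [MonoidalClosed T]
  [HasCoproducts.{0} T] [HasProducts.{0} T] [StableCat T] {B : T} [MonObj B] [IsCommMonObj B]
  {N N' : T} (m : ModStr B N) {m' : ModStr B N'}

theorem tl_act (Y : T) : (m.tensorLeft Y).act =
    (α_ B Y N).inv ≫ (β_ B Y).hom ▷ N ≫ (α_ Y B N).hom ≫ Y ◁ m.act := by
  change B ◁ (β_ N Y).inv ≫ ((α_ B N Y).inv ≫ m.act ▷ Y) ≫ (β_ N Y).hom = _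
  rw [Category.assoc, BraidedCategory.braiding_naturality_left,
    BraidedCategory.braiding_tensor_left_hom]
  simp

theorem lin_beta (Y : T) : (m.tensorRight Y).IsLinear (m.tensorLeft Y) (β_ N Y).hom := by
  change _ = B ◁ (β_ N Y).hom ≫ B ◁ (β_ N Y).inv ≫ (m.tensorRight Y).act ≫ (β_ N Y).hom
  simp

theorem lin_beta' (Y : T) : (m.tensorLeft Y).IsLinear (m.tensorRight Y) (β_ Y N).hom := by
  have := isLinear_inv _ _ (lin_beta m Y)
  rwa [IsIso.Iso.inv_hom, ← SymmetricCategory.braiding_swap_eq_inv_braiding] at this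

theorem lin_wl {Z Z' : T} (e : Z ⟶ Z') :
    (m.tensorRight Z).IsLinear (m.tensorRight Z') (N ◁ e) := by
  change ((α_ B N Z).inv ≫ m.act ▷ Z) ≫ N ◁ e = B ◁ (N ◁ e) ≫ (α_ B N Z').inv ≫ m.act ▷ Z'
  rw [associator_inv_naturality_right_assoc, whisker_exchange, Category.assoc]

variable {m} in
theorem tl_wl {g : N ⟶ N'} (h : m.IsLinear m' g) (Y : T) :
    (m.tensorLeft Y).IsLinear (m'.tensorLeft Y) (Y ◁ g) := by
  have := isLinear_comp _ _ (lin_beta' m Y) (isLinear_comp _ _ (lin_wr h Y) (lin_beta m' Y))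
  rwa [BraidedCategory.braiding_naturality_left, SymmetricCategory.symmetry_assoc] at this

theorem tl_wr {Y Y' : T} (g : Y ⟶ Y') : (m.tensorLeft Y).IsLinear (m.tensorLeft Y') (g ▷ N) := by
  have := isLinear_comp _ _ (lin_beta' m Y) (isLinear_comp _ _ (lin_wl m g) (lin_beta m Y'))
  rwa [BraidedCategory.braiding_naturality_right, SymmetricCategory.symmetry_assoc] at this

theorem tl_assoc (Y Z : T) :
    (m.tensorLeft (Y ⊗ Z)).IsLinear ((m.tensorLeft Z).tensorLeft Y) (α_ Y Z N).hom := by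
  simp only [ModStr.IsLinear, tl_act, BraidedCategory.braiding_tensor_right_hom]
  monoidal

theorem tl_mid (Y Z : T) :
    ((m.tensorLeft Y).tensorRight Z).IsLinear ((m.tensorRight Z).tensorLeft Y) (α_ Y N Z).hom := by
  simp only [ModStr.IsLinear, tl_act, ModStr.tensorRight]
  monoidal

theorem tr_assoc (Y Z : T) :
    ((m.tensorRight Y).tensorRight Z).IsLinear (m.tensorRight (Y ⊗ Z)) (α_ N Y Z).hom := by
  simp only [ModStr.IsLinear, ModStr.tensorRight]
  monoidal

theorem tr_assoc' (Y Z : T) :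
    (m.tensorRight (Y ⊗ Z)).IsLinear ((m.tensorRight Y).tensorRight Z) (α_ N Y Z).inv := by
  simp only [ModStr.IsLinear, ModStr.tensorRight]
  monoidal

theorem tl_unit : (m.tensorLeft (𝟙_ T)).IsLinear m (λ_ N).hom := by
  simp only [ModStr.IsLinear, tl_act, braiding_tensorUnit_right]
  monoidal

theorem tr_unit : (m.tensorRight (𝟙_ T)).IsLinear m (ρ_ N).hom := by
  simp only [ModStr.IsLinear, ModStr.tensorRight]
  monoidal

theorem act_lin : (m.tensorLeft B).IsLinear m m.act := by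
  unfold ModStr.IsLinear
  rw [tl_act, Category.assoc, Category.assoc, Category.assoc, ← m.mul_act,
    ← comp_whiskerRight_assoc, IsCommMonObj.mul_comm, m.mul_act, Iso.inv_hom_id_assoc]

theorem zsm_lin {l k n : ℤ} (h : l + k = n) (c : (stdEven T).S l ⟶ B)
    {y : (stdEven T).S k ⊗ N ⟶ N'} (hy : (m.tensorLeft _).IsLinear m' y) :
    (m.tensorLeft _).IsLinear m' (zsm m' h c y) := by
  unfold zsm
  rw [tensorHom_def', Category.assoc]
  exact isLinear_comp _ _ (tl_wr m _) (isLinear_comp _ _ (tl_assoc m _ _)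
    (isLinear_comp _ _ (tl_wl hy _) (isLinear_comp _ _ (tl_wr m' c) (act_lin m'))))

theorem wl_zsm {Z Z' : T} {l k n : ℤ} (h : l + k = n) (c : (stdEven T).S l ⟶ B)
    (y : (stdEven T).S k ⊗ Z ⟶ N) (g : Z' ⟶ Z) :
    (stdEven T).S n ◁ g ≫ zsm m h c y = zsm m h c ((stdEven T).S k ◁ g ≫ y) := by
  unfold zsm
  rw [whisker_exchange_assoc, associator_naturality_right_assoc, ← id_tensorHom,
    tensorHom_comp_tensorHom_assoc, Category.id_comp]

theorem zsm_mu {l i n k p q : ℤ} (h : l + i = n) (h1 : i + k = p) (h2 : n + k = q) (h3 : l + p = q)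
    (c : (stdEven T).S l ⟶ B) (z : (stdEven T).S p ⟶ N) :
    zsm m h c (((stdEven T).mu i k p h1).hom ≫ z) =
      ((stdEven T).mu n k q h2).hom ≫ gsmul m h3 c z := by
  have e := (stdEven T).mu_assoc l i k n p q h h2 h1 h3
  unfold zsm gsmul EvenSpheres.ext
  rw [← cancel_epi (((stdEven T).mu l i n h).hom ▷ (stdEven T).S k), reassoc_of% e,
    hom_inv_whiskerRight_assoc, Category.assoc, Iso.hom_inv_id_assoc, ← id_tensorHom,
    tensorHom_comp_tensorHom_assoc, Category.id_comp]

end Vale.Agent.P251EJ81
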